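import Vale.Agent.P011UQ.Co
import Vale.Agent.P011UC.Tr
import Vale.Agent.P011UD.Aut
import Vale.Agent.P011UB.Main
import Vale.Agent.P011UP.Std

/-!
The Tits algebras are killed by a totally imaginary quadratic extension: assembly.
-/

set_option autoImplicit false
set_option linter.all false

namespace Vale.Agent.P011UQ

open Matrix IntermediateField Vale.Agent.P011L Vale.Agent.P011LD Vale.Agent.P011LQ
  Vale.Agent.P183CH Vale.Agent.P183CH.RG Vale.Agent.P011U Vale.Agent.P011UD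

theorem dg3 : DG3 := fun _ => P011U.dg3

theorem dg1 : DG1 := fun R n e t h => by
  refine ⟨fun π hπ => e.injective ?_, fun i => ?_⟩
  · simpa using autD (by omega) (t.au hπ) 0 (.inr ⟨by simp; omega, by omega⟩)
  obtain ⟨v, m, hv⟩ : ∃ (v : ℕ → ℤ) (m : ℤ), ∀ b : Fin (n + 1),
      ∑ a : Fin (n + 1), v a * CartanMatrix.D (n + 1) a b =
        (if b = e i then 2 else 0) - if b = 0 then m else 0 := by
    have := (e i).2
    simp only [sumD (show 4 ≤ n + 1 by omega), Fin.ext_iff, Fin.val_zero]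
    by_cases c : (e i).1 + 2 < n + 1
    · refine ⟨fun a => if n + 1 ≤ a + 2 then ((e i).1 : ℤ) + 1 else if a < e i then 2 * a + 2 else
        2 * (e i).1 + 2, 0, fun b => ?_⟩
      have := b.2
      beta_reduce
      split_ifs <;> omega
    · refine ⟨fun a => if a = e i then 0 else if n + 1 ≤ a + 2 then -1 else (a : ℤ) - n, n + 1,
        fun b => ?_⟩
      have := b.2
      beta_reduce
      split_ifs <;> omega
  refine ⟨fun a => v (e a), m, fun b => ?_⟩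
  have := hv (e b)
  rw [← e.sum_comp] at this
  simpa only [RS.pr_eq, t _ _, e.apply_eq_iff_eq, e.eq_symm_apply] using this

theorem chi0_prod (R : RS) {K : Type} [Field K] (γ : R.Q) (s : Fin R.r → Kˣ) :
    ∏ j, chi0 R K (R.α j) s ^ γ j = chi0 R K γ s := by
  simp only [chi0_apply, ← Finset.prod_zpow, ← _root_.zpow_mul, RS.pr_α]
  rw [Finset.prod_comm]
  refine Finset.prod_congr rfl fun i _ => Additive.ofMul.injective ?_
  simp [RS.pr_eq γ, mul_comm]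
  exact (Finset.sum_smul (f := fun x => γ x * R.A x i) (x := Additive.ofMul (s i))).symm

theorem chi0_two {R : RS} {K : Type} [Field K] {γ : R.Q} {s : Fin R.r → Kˣ} {i i₀ : Fin R.r}
    {m : ℤ} (h : ∀ j, R.pr γ j = (if j = i then 2 else 0) - if j = i₀ then m else 0)
    (h' : s i₀ ^ m = 1) : chi0 R K γ s = s i ^ 2 := by
  have e : ∀ i (m : ℤ), ∏ j, s j ^ (if j = i then m else 0) = s i ^ m := fun i m => by
    rw [Finset.prod_eq_single i (fun j _ a => by simp [a]) (by simp), if_pos rfl]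
  simp only [chi0_apply, h, _root_.zpow_sub, Finset.prod_mul_distrib, Finset.prod_inv_distrib, e, h',
    inv_one, mul_one, zpow_ofNat]

theorem glob_inf {k : Type} [Field k] (h : Glob k) : Infinite k := by
  rcases h with h | ⟨F, _, _, _, _⟩
  · infer_instance
  · exact .of_injective _ ((algebraMap (RatFunc F) k).injective.comp
      (RatFunc.algebraMap_injective F))

variable {k K : Type} [Field k] [Field K] [Algebra k K] {D : Chev} {T : Tw k (D.grp K)}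
  {g : (K ≃ₐ[k] K) → D.grp K} {c : (K ≃ₐ[k] K) → Fin D.R.r → Kˣ}
  {π : (K ≃ₐ[k] K) → Equiv.Perm (Fin D.R.r)}

theorem of_TJ (hD : SC D) {J : Set (Fin D.R.r)} {s : Fin D.R.r → Kˣ}
    (h : GG_ok.hT s ∈ TJ (GG D K) J) {i : Fin D.R.r} (hi : i ∉ J) : s i = 1 := by
  obtain ⟨t, h1, h2⟩ : GG_ok.hT s ∈ ((Pi.evalMonoidHom _ i).ker.map GG_ok.hT : Subgroup _) := by
    refine (Subgroup.closure_le _).2 ?_ h
    rintro _ ⟨j, hj, t, rfl⟩
    exact ⟨Pi.mulSingle j t, by simp [show i ≠ j by rintro rfl; exact hi hj],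
      GG_ok.hT_single j t⟩
  exact hD.hT_inj h2 ▸ h1

/-- A coboundary on the Galois group of `k⟮r⟯`. -/
theorem lift_res [IsGalois k K] (h : ∀ σ, Std (GG D K) (T.a σ) σ (g σ) (c σ) (π σ))
    (h0 : Op ⊤ fun τ => g τ = 1) {z : _ → _ → Fin D.R.r → Kˣ}
    (hz : ∀ σ τ, tz T g σ τ = GG_ok.hT (z σ τ)) {r : K} {t : _ → Fin D.R.r → Kˣ}
    (h1 : ∀ σ, σ r = r → ∀ τ, τ r = r → ∀ j,
      z σ τ (π σ j) * um σ (t τ j) * t σ (π σ j) = t (σ * τ) (π σ j))
    (h2 : Op ⊤ fun σ => σ r = r → t σ = 1) : Lift (P011UC.res T k⟮r⟯) := by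
  have := Normal.tower_top_of_normal k k⟮r⟯ K
  have f : ∀ σ : K ≃ₐ[k⟮r⟯] K, σ.restrictScalars k r = r := fun σ =>
    σ.commutes (AdjoinSimple.gen k r)
  refine lift_of (fun σ => std_mul GG_ok (Chev.R_ok D) (h (σ.restrictScalars k))
    (t (σ.restrictScalars k))) (fun σ τ => ?_) ?_
  · have e1 := hz (σ.restrictScalars k) (τ.restrictScalars k)
    have e2 := std_hT GG_ok (ψ := (T.a (σ.restrictScalars k)).toMonoidHom)
      (σ := (σ.restrictScalars k : K →+* K)) (h _) (t (τ.restrictScalars k))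
    have e3 : z _ _ * (fun j => um _ (t _ ((π _)⁻¹ j))) * t _ = t _ := funext fun j => by
      simpa using h1 _ (f σ) _ (f τ) ((π (σ.restrictScalars k))⁻¹ j)
    have e4 := congrArg GG_ok.hT e3
    rw [map_mul, map_mul, ← e1] at e4
    show (g (σ.restrictScalars k * τ.restrictScalars k) *
      GG_ok.hT (t (σ.restrictScalars k * τ.restrictScalars k)))⁻¹ *
      (T.a (σ.restrictScalars k)).toMonoidHom (g _ * _) * _ = 1
    rw [map_mul, e2, ← e4, tz]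
    exact (by intros; group : ∀ a b c d e : D.grp K, (a * (a⁻¹ * b * c * d * e))⁻¹ * (b * (c * d * c⁻¹)) *
      (c * e) = 1) _ _ _ _ _
  · obtain ⟨S, hS⟩ := h0.and h2
    refine ⟨S, fun σ _ e => ?_⟩
    have := hS (σ.restrictScalars k) trivial e
    simp [this.1, this.2 (f σ)]

/-- The exponent of the coordinates of the Tits cocycle. -/
theorem exp_two {z : _ → _ → Fin D.R.r → Kˣ} {Δ : Subgroup (K ≃ₐ[k] K)} {n : Type} [Fintype n]
    [DecidableEq n] {A : (K ≃ₐ[k] K) → GL n K} {i : Fin D.R.r} (hπ : ∀ σ, Dg D.R (π σ))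
    (hc : ∀ σ τ j, c (σ * τ) j =
      chi0 D.R K (D.R.α (π (σ * τ) j)) (z σ τ) * (c σ (π τ j) * um σ (c τ j)))
    (h0 : Op ⊤ fun τ => c τ = 1) {γ : D.R.Q} (h1 : ∀ σ ∈ Δ, ∀ j, D.R.pr γ (π σ j) = D.R.pr γ j)
    (h2 : ∀ σ τ, chi0 D.R K γ (z σ τ) = z σ τ i ^ 2) (h3 : ∀ σ ∈ Δ, ∀ τ ∈ Δ,
      (A σ).1 * (A τ).1.map σ = (z σ τ i : K) • (A (σ * τ)).1) (h4 : Op ⊤ fun σ => (A σ).1 = 1) :
    PA Δ 2 A fun σ => ((∏ j, c σ j ^ γ j)⁻¹ : Kˣ) := by
  have e : ∀ σ ∈ Δ, ∀ j, γ (π σ j) = γ j := fun σ x j => by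
    have : P011UP.pm (π σ) γ = γ := (Chev.R_ok D).pr_inj (funext fun j => by
      obtain ⟨j, rfl⟩ := (π σ).surjective j
      rw [P011UP.pm_pr (hπ σ), h1 σ x])
    simpa [P011UP.pm] using (congrFun this (π σ j)).symm
  refine ⟨fun σ _ => Units.ne_zero _, fun σ x τ y => ⟨_, h3 σ x τ y, ?_⟩,
    (h0.and h4).elim fun S hS => ⟨S, fun σ _ a => ⟨1, by simpa using hS σ trivial a |>.2, by
      simp [(hS σ trivial a).1]⟩⟩⟩
  have a1 : ∏ j, chi0 D.R K (D.R.α (π (σ * τ) j)) (z σ τ) ^ γ j = z σ τ i ^ 2 := by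
    rw [← h2, ← chi0_prod,
      ← Equiv.prod_comp (π (σ * τ)) fun j => chi0 D.R K (D.R.α j) (z σ τ) ^ γ j]
    simp only [e _ (mul_mem x y)]
  have a2 : ∏ j, c σ (π τ j) ^ γ j = ∏ j, c σ j ^ γ j := by
    rw [← Equiv.prod_comp (π τ) fun j => c σ j ^ γ j]
    simp only [e _ y]
  have a3 : (∏ j, c σ j ^ γ j)⁻¹ * um σ (∏ j, c τ j ^ γ j)⁻¹ =
      z σ τ i ^ 2 * (∏ j, c (σ * τ) j ^ γ j)⁻¹ := by
    simp only [hc, mul_zpow, Finset.prod_mul_distrib, a1, a2, map_inv, map_prod, map_zpow]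
    simp [mul_comm]
  exact congrArg Units.val a3

theorem bq_of (hN : BQN) (hF : BQF) : BQ fun k _ => Glob k := fun k K _ _ _ _ h => by
  rcases h with h | ⟨F, _, _, _, _⟩
  · exact hN k K h
  · exact hF k K (P011.H271.GFF.mk' F k)

theorem mul_fix [IsGalois k K] {r : K} (h : Module.finrank k k⟮r⟯ = 2) {σ τ : K ≃ₐ[k] K}
    (h1 : σ r ≠ r) (h2 : τ r ≠ r) : (σ * τ) r = r := by
  have e : ∀ ρ : K ≃ₐ[k] K, ρ ∈ k⟮r⟯.fixingSubgroup ↔ ρ r = r := fun ρ =>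
    (mem_fixingSubgroup_iff _ _).trans
      ⟨fun a => a r (mem_adjoin_simple_self k r), fun a x hx => fix_adjoin a ⟨x, hx⟩⟩
  rw [← e, Subgroup.mul_mem_iff_of_index_two (by rw [← finrank_eq_fixingSubgroup_index, h]), e, e]
  exact iff_of_false h1 h2

theorem cq_of (hN : BQN) (hF : BQF) : CQ := fun k K _ _ _ _ D hk hD T hA h => by
  have B := bq_of hN hF k K hk
  have : IsGalois k K := IsSepClosure.isGalois
  have hR := Chev.R_ok D
  have o : ∀ {g c π}, NF T g c π → Op ⊤ fun τ => g τ = 1 := fun h =>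
    (near_op h.2.2).imp fun τ _ e => by simpa [h.2.1] using (e 1).1
  by_cases hL : Lift T
  · obtain ⟨g, c, π, h1, h2⟩ := hL
    obtain ⟨r, a1, a2, -⟩ := B ⊤ ⟨∅, fun _ _ _ => trivial⟩ (by simp) Empty Unit (fun _ => ⊤)
      (fun _ => 1) (fun _ => 1) nofun nofun
    exact ⟨_, _, a1, a2, P011UC.res_res T _, lift_res h1.1 (o h1) (z := 1) (t := 1)
      (fun σ τ => (h2 σ τ).trans (map_one _).symm) (by simp) ⟨∅, by simp⟩⟩
  replace h := (or_assoc.2 h).resolve_right hL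
  obtain ⟨E, hE, e1⟩ := dg3 D.R hR hA (h.imp id fun ⟨n, e, t, l, _⟩ => ⟨_, e, by omega, t⟩)
  obtain ⟨g, c, π, h1, h2⟩ : ∃ g c π, NF T g c π ∧ ∀ i, ∃ γ : D.R.Q, (∀ σ, π σ i = i → ∀ j,
      D.R.pr γ (π σ j) = D.R.pr γ j) ∧ ∀ σ τ s, tz T g σ τ = GG_ok.hT s →
        chi0 D.R K γ s = s i ^ 2 := by
    have e2 : ∀ {π : Equiv.Perm (Fin D.R.r)} {i}, π i = i → ∀ j, π j = i ↔ j = i :=
      fun {π i} a j => ⟨fun e => π.injective (e.trans a.symm), fun e => e ▸ a⟩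
    rcases h with h | ⟨n, e, t, l, g, c, π, h1, h2⟩
    · have := glob_inf hk
      obtain ⟨g, c, π, h1⟩ := P011UC.nfx P011UB.aut k K D hD T
      refine ⟨g, c, π, h1, fun i => (h i).imp fun γ a => ⟨fun σ x j => by simp only [a, e2 x],
        fun σ τ s _ => ?_⟩⟩
      exact chi0_two (i₀ := i) (m := 0) (by simpa using a) (zpow_zero _)
    · obtain ⟨d1, d2⟩ := dg1 D.R n e t l
      refine ⟨g, c, π, h1, fun i => ?_⟩
      obtain ⟨γ, m, a⟩ := d2 i
      refine ⟨γ, fun σ x j => by simp only [a, e2 x, e2 (d1 _ (h1.1 σ).1)], fun σ τ s x => ?_⟩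
      exact chi0_two a (by rw [of_TJ hD (s := s) (x ▸ h2 σ τ) (i := e.symm 0) (by simp), _root_.one_zpow])
  obtain ⟨p, z, b1, b2, b3, b4, b5⟩ := nf_co hD h1
  obtain rfl : π = p := (funext b1).symm
  obtain ⟨Γ, b, c1, c2, c3, c4, c5⟩ := orb p hE fun σ => e1 _ (h1.1 σ).1
  obtain ⟨n, _, _, _, A, d1, d2⟩ := pa_of b2
  choose γ f1 f2 using h2
  obtain ⟨r, a1, a2, ⟨σ₀, a3, a4⟩, a5⟩ := B Γ (b2.op.imp fun σ _ x => c1 x.1) c2 _ n
    (fun j => St p (b j)) (fun j => A (b j)) _ c3 fun j => exp_two (fun σ => (h1.1 σ).1) b4 b5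
      (f1 (b j)) (fun σ τ => f2 _ σ τ _ (b3 σ τ)) (d1 _) (d2.imp fun _ _ x => x _)
  obtain ⟨t, t1, t2⟩ := shapiro b2 (Δ := MulAction.stabilizer _ r) c4 (fun j => by
      obtain ⟨σ, x⟩ := c5 j
      by_cases y : σ r = r
      · exact ⟨σ, y, x⟩
      · have : σ₀ ∈ St p (b j) := (c3 j).elim (fun e => e ▸ trivial) fun e => e ▸ a3
        exact ⟨σ * σ₀, mul_fix a1 y a4, by simp [mem_St.1 this, x]⟩)
    fun j => bd_of (Δ := St p (b j) ⊓ MulAction.stabilizer _ r)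
      (fun σ x τ y => d1 _ σ x.1 τ y.1) (d2.imp fun _ _ x => x _) (a5 j)
  exact ⟨_, _, a1, a2, P011UC.res_res T _, lift_res h1.1 (o h1) b3 t1 t2⟩

/-- One projective action. -/
theorem bq_one (hN : BQN) (hF : BQF) (k K : Type) [Field k] [Field K] [Algebra k K]
    [IsSepClosure k K] (hk : Glob k) (n : Type) [Fintype n] [DecidableEq n] [Nonempty n]
    (A : (K ≃ₐ[k] K) → GL n K) (l : (K ≃ₐ[k] K) → K) (h : PA ⊤ 2 A l) :
    ∃ L : IntermediateField k K, Module.finrank k L = 2 ∧ NoR L ∧ Sp {σ | ∀ x ∈ L, σ x = x} A := by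
  obtain ⟨r, a1, a2, -, a3⟩ := bq_of hN hF k K hk ⊤ ⟨∅, fun _ _ _ => trivial⟩ (by simp) Unit n
    (fun _ => ⊤) (fun _ => A) (fun _ => l) (fun _ => .inl rfl) fun _ => h
  exact ⟨_, a1, a2, (a3 ()).mono fun σ x => ⟨trivial, x r (mem_adjoin_simple_self k r)⟩⟩

end Vale.Agent.P011UQ
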