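import Vale.Agent.P011U.IF2
import Vale.Agent.P011UA.A0
import Vale.Agent.P011UB.Iw
import Vale.Agent.P011LD.H90

/-!
The normal form of a twisted action and the Tits cocycle in coordinates.
-/

set_option autoImplicit false
set_option linter.all false

namespace Vale.Agent.P011UQ

open Matrix Vale.Agent.P011L Vale.Agent.P011LD Vale.Agent.P183CH Vale.Agent.P183CH.RG
  Vale.Agent.P011U Vale.Agent.P011UB

section
variable {R : RS} {K G : Type} [Field K] [Group G] {Γ : RG R K G} {ψ : G → G} {σ : K → K}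
  {g g' z : G} {c c' : Fin R.r → Kˣ} {π π' : Equiv.Perm (Fin R.r)}

theorem _root_.Vale.Agent.P011U.Std.comp {ψ : G →* G} {σ : K →+* K} {ψ' : G → G} {σ' : K → K}
    (h : Std Γ ψ σ g c π) (h' : Std Γ ψ' σ' g' c' π') :
    Std Γ (fun x => ψ (ψ' x)) (fun x => σ (σ' x)) (ψ g' * g)
      (fun i => c (π' i) * Units.map σ.toMonoidHom (c' i)) (π * π') := by
  refine ⟨fun i j => (h.1 _ _).trans (h'.1 i j), fun i u => ⟨?_, ?_⟩⟩ <;> beta_reduce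
  · rw [(h'.2 i u).1, map_mul, map_mul, (h.2 _ _).1, map_inv]
    simp [mul_assoc]
  · rw [(h'.2 i u).2, map_mul, map_mul, (h.2 _ _).2, map_inv]
    simp [mul_assoc, mul_left_comm]

variable (hΓ : Γ.Ok) (hR : R.Ok)
include hΓ hR

theorem bo_of (h : ∀ j, ∃ a ≠ 0, z * Γ.x (R.α j) a * z⁻¹ ∈ Γ.U) : z ∈ Γ.Bo := by
  obtain ⟨u, hu, n, w, hn, u', hu', rfl⟩ := hΓ.bruhat hR z
  have : w = 1 := hR.eq_one hn.mem_W fun j _ =>
    (hR.sign' hn.mem_W (hR.simple j)).resolve_right fun e => by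
      obtain ⟨a, a0, ha⟩ := h j
      have h1 : u' * Γ.x (R.α j) a * u'⁻¹ ∈ Γ.X (R.Inv w) := mul_mem (mul_mem hu'
        (x_mem (S := R.Inv w) (hR.simple j) ⟨hR.simple j, RS.α_nonneg j, e⟩ a)) (inv_mem hu')
      have h2 := hΓ.U_inf_V (mem_eq (mul_mem (mul_mem (inv_mem hu) ha) hu) (by group))
        (hΓ.conj_V hR hn h1)
      exact a0 (hΓ.x_eq_one hR (hR.simple j) (by simpa using h2))
  exact mul_mem (mul_mem (U_le_Bo hu) (T_le_Bo (hΓ.rep_one hR (this ▸ hn))))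
    (U_le_Bo (X_le_U (RS.cl_Inv _).1 hu'))

theorem t_of (h : ∀ j, ∃ a ≠ 0, z * Γ.x (R.α j) a * z⁻¹ ∈ Γ.U)
    (h' : ∀ j, ∃ a ≠ 0, z * Γ.x (-R.α j) a * z⁻¹ ∈ Γ.V) : z ∈ Γ.T := by
  obtain ⟨n, w, hn, hw⟩ := exists_n0 hΓ hR
  obtain ⟨u, hu, t, ht, rfl⟩ := hΓ.mem_Bo.1 (bo_of hΓ hR h)
  obtain ⟨u', hu', t', ht', e⟩ := hΓ.mem_Bo.1 (bo_of hΓ hR (z := n⁻¹ * (u * t) * n) fun j => by
    obtain ⟨j', -, e⟩ := hR.Lg_α hw (Set.mem_univ j)
    obtain ⟨d, hd⟩ := hΓ.rep_conj hR hn (hR.simple j)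
    obtain ⟨a, a0, ha⟩ := h' j'
    refine ⟨(d⁻¹ : Kˣ) * a, mul_ne_zero (Units.ne_zero _) a0, (n0_U hΓ hR hn hw).2 (mem_eq ha ?_)⟩
    rw [← e, ← Units.mul_inv_cancel_left d a, ← (hd _).1, Units.mul_inv_cancel_left]
    group)
  have h1 := hΓ.nm_N_T hR _ hn.mem_N _ ht'
  have h2 := (hΓ.tri u hu _ (mul_mem ht (inv_mem h1)) (by
    have := (n0_U hΓ hR hn hw).1 hu'
    rw [eq_mul_inv_of_mul_eq e.symm] at this
    exact mem_eq this (by group))).1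
  rwa [h2, one_mul]

/-- The uniqueness of the standard form. -/
theorem std_uniq (h : Std Γ ψ σ g c π) (h' : Std Γ ψ σ g' c' π') (h1 : σ 1 = 1) :
    π' = π ∧ ∃ s, g'⁻¹ * g = hΓ.hT s ∧ ∀ i, c' i = chi0 R K (R.α (π i)) s * c i := by
  have e1 : ∀ i, g'⁻¹ * g * Γ.x (R.α (π i)) (c i) * (g'⁻¹ * g)⁻¹ = Γ.x (R.α (π' i)) (c' i) :=
    fun i => by
      have := (h.2 i 1).1.symm.trans (h'.2 i 1).1
      rw [h1, mul_one, mul_one] at this
      rw [← mul_inv_cancel_right (Γ.x (R.α (π' i)) _) g'⁻¹, ← inv_mul_cancel_left g' (Γ.x _ (c' i)),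
        mul_assoc g'⁻¹ (g' * _), ← this]
      group
  have e2 : ∀ i, g'⁻¹ * g * Γ.x (-R.α (π i)) ((c i)⁻¹ : Kˣ) * (g'⁻¹ * g)⁻¹ =
      Γ.x (-R.α (π' i)) ((c' i)⁻¹ : Kˣ) := fun i => by
    have := (h.2 i 1).2.symm.trans (h'.2 i 1).2
    rw [h1, mul_one, mul_one] at this
    rw [← mul_inv_cancel_right (Γ.x (-R.α (π' i)) _) g'⁻¹,
      ← inv_mul_cancel_left g' (Γ.x _ ((c' i)⁻¹ : Kˣ)), mul_assoc g'⁻¹ (g' * _), ← this]
    group
  obtain ⟨s, hs⟩ := hΓ.exists_hT (t_of hΓ hR (z := g'⁻¹ * g) (fun j => by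
      obtain ⟨i, rfl⟩ := π.surjective j
      exact ⟨_, (c i).ne_zero, e1 i ▸ x_mem (hR.simple _) (RS.α_nonneg _) _⟩) fun j => by
    obtain ⟨i, rfl⟩ := π.surjective j
    exact ⟨_, Units.ne_zero _,
      e2 i ▸ x_mem (hR.neg_mem (hR.simple _)) (neg_nonpos.2 (RS.α_nonneg _)) _⟩)
  have e3 := fun i => (hΓ.hT_x s (hR.simple (π i)) (c i)).symm.trans (hs ▸ e1 i)
  obtain rfl : π' = π := Equiv.ext fun i => by
    have := congrFun (hΓ.x_eq hR (hR.simple _) (hR.simple _)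
      (mul_ne_zero (Units.ne_zero _) (Units.ne_zero _)) (e3 i)) (π' i)
    by_contra e
    simp [RS.α, e] at this
  exact ⟨rfl, s, hs.symm, fun i => Units.ext (hΓ.x_inj hR (hR.simple _) (e3 i)).symm⟩

omit hR in
theorem std_h {ψ : G →* G} {σ : K →+* K} (h : Std Γ ψ σ g c π) (i : Fin R.r) (t : Kˣ) :
    ψ (Γ.h i t) = g * Γ.h (π i) (Units.map σ.toMonoidHom t) * g⁻¹ := by
  have e : ∀ t : Kˣ, ψ (Γ.h i t * Γ.n i) =
      g * (Γ.h (π i) (c i * Units.map σ.toMonoidHom t) * Γ.n (π i)) * g⁻¹ := fun t => by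
    rw [← hΓ.sl, ← hΓ.sl, map_mul, map_mul, (h.2 _ _).1, (h.2 _ _).2]
    simp [mul_assoc, mul_comm]
  have e1 := e 1
  rw [map_one, one_mul, map_one, mul_one] at e1
  rw [eq_mul_inv_of_mul_eq ((map_mul ψ _ _).symm.trans (e t)), e1, mul_comm (c i), map_mul]
  group

omit hR in
theorem std_hT {ψ : G →* G} {σ : K →+* K} (h : Std Γ ψ σ g c π) (s : Fin R.r → Kˣ) :
    ψ (hΓ.hT s) = g * hΓ.hT (fun j => Units.map σ.toMonoidHom (s (π⁻¹ j))) * g⁻¹ := by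
  induction s using Pi.mulSingle_induction with
  | one => simp [← Pi.one_def]
  | mul a b ha hb =>
    rw [map_mul, map_mul, ha, hb]
    simp only [Pi.mul_apply, map_mul]
    rw [← Pi.mul_def, map_mul]
    group
  | mulSingle i t =>
    rw [hΓ.hT_single, std_h hΓ h, ← hΓ.hT_single]
    congr 3
    funext j
    obtain ⟨j, rfl⟩ := π.surjective j
    by_cases e : j = i <;> simp [e]

theorem std_mul (h : Std Γ ψ σ g c π) (s : Fin R.r → Kˣ) :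
    Std Γ ψ σ (g * hΓ.hT s) (fun i => (chi0 R K (R.α (π i)) s)⁻¹ * c i) π := by
  have a : ∀ t y : G, g * t * y * (g * t)⁻¹ = g * (t * y * t⁻¹) * g⁻¹ := fun _ _ => by group
  refine ⟨h.1, fun i u => ⟨?_, ?_⟩⟩
  · rw [(h.2 i u).1, a, hΓ.hT_x s (hR.simple _)]
    simp [mul_assoc]
  · have e : chi0 R K (-R.α (π i)) s = (chi0 R K (R.α (π i)) s)⁻¹ := by
      rw [chi0_apply, chi0_apply, ← hΓ.chi_hT hR, ← hΓ.chi_hT hR, hΓ.chi_neg]
    rw [(h.2 i u).2, a, hΓ.hT_x s (hR.neg_mem (hR.simple _)), e]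
    congr 3
    simp
    field_simp

end

section
variable {k K : Type} [Field k] [Field K] [Algebra k K]

/-- The action on units. -/
abbrev um (σ : K ≃ₐ[k] K) : Kˣ →* Kˣ := Units.map (σ : K →+* K).toMonoidHom

theorem near_op {P : (K ≃ₐ[k] K) → Prop} (h : Near k P) : Op ⊤ P := by
  obtain ⟨F, _, h⟩ := h
  exact Op.of_field F fun σ _ => h σ

theorem op_near [Algebra.IsAlgebraic k K] {P : (K ≃ₐ[k] K) → Prop} (h : Op ⊤ P) : Near k P := by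
  obtain ⟨S, h⟩ := h
  exact ⟨IntermediateField.adjoin k (S : Set K), IntermediateField.finiteDimensional_adjoin
    fun x _ => Algebra.IsIntegral.isIntegral x, fun τ e => h τ trivial fun x hx =>
      e x (IntermediateField.subset_adjoin k _ hx)⟩

/-- Open normal subgroups. -/
theorem exists_normal [Normal k K] {P : (K ≃ₐ[k] K) → Prop} (h : Op ⊤ P) :
    ∃ N : Subgroup (K ≃ₐ[k] K), N.Normal ∧ Finite ((K ≃ₐ[k] K) ⧸ N) ∧ Op ⊤ (· ∈ N) ∧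
      ∀ σ ∈ N, P σ := by
  obtain ⟨F, _, h⟩ := op_near h
  let E := IntermediateField.normalClosure k F K
  let f := AlgEquiv.restrictNormalHom (F := k) (K₁ := K) E
  have e : ∀ σ, σ ∈ f.ker ↔ ∀ x ∈ E, σ x = x := fun σ => by
    rw [IntermediateField.restrictNormalHom_ker, IntermediateField.mem_fixingSubgroup_iff]
  exact ⟨f.ker, inferInstance, Finite.of_equiv _ (QuotientGroup.quotientKerEquivRange f).symm.toEquiv,
    Op.of_field E fun σ _ => (e σ).2,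
    fun σ s => h σ fun x hx => (e σ).1 s x (IntermediateField.le_normalClosure F hx)⟩

theorem op_all [Normal k K] {X : Type} {f : (K ≃ₐ[k] K) → X} {P : X → (K ≃ₐ[k] K) → Prop}
    (h : Op ⊤ fun τ => ∀ σ, f (σ * τ) = f σ) (h' : ∀ x, Op ⊤ (P x)) :
    Op ⊤ fun τ => ∀ σ, P (f σ) τ := by
  obtain ⟨N, _, _, -, e⟩ := exists_normal h
  refine (Op.all fun ρ : _ ⧸ N => h' (f ρ.out)).imp fun τ _ a σ => ?_
  obtain ⟨n, hn⟩ := QuotientGroup.mk_out_eq_mul N σ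
  simpa only [hn, e n.1 n.2] using a (σ : _ ⧸ N)

/-- Cocycles with values in a permutation module. -/
structure Co {ι : Type} (π : (K ≃ₐ[k] K) →* Equiv.Perm ι)
    (z : (K ≃ₐ[k] K) → (K ≃ₐ[k] K) → ι → Kˣ) : Prop where
  co : ∀ σ τ ρ j, z σ (τ * ρ) (π σ j) * um σ (z τ ρ j) = z (σ * τ) ρ (π σ j) * z σ τ (π σ j)
  op : Op ⊤ fun τ => π τ = 1 ∧ ∀ σ, z σ τ = 1 ∧ z τ σ = 1

variable {D : Chev} {T : Tw k (D.grp K)} {g : (K ≃ₐ[k] K) → D.grp K}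
  {c : (K ≃ₐ[k] K) → Fin D.R.r → Kˣ} {π : (K ≃ₐ[k] K) → Equiv.Perm (Fin D.R.r)}

theorem tw_op (T : Tw k (D.grp K)) : Op ⊤ fun τ => ∀ x, T.a τ x = fm D (τ : K →+* K) x := by
  obtain ⟨F, _, h⟩ := T.cont
  exact Op.of_field F fun τ _ e x => Subtype.ext (Units.ext (h τ e x))

theorem tw_fix (T : Tw k (D.grp K)) (x : D.grp K) : Op ⊤ fun τ => T.a τ x = x :=
  ((tw_op T).and (Op.mat ⊤ x.1.1)).imp fun τ _ e => (e.1 x).trans (Subtype.ext (Units.ext e.2))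

/-- The Tits cocycle in coordinates. -/
theorem nf_co [Normal k K] (hD : SC D) (h : NF T g c π) :
    ∃ (p : (K ≃ₐ[k] K) →* Equiv.Perm (Fin D.R.r)) (z : _ → _ → Fin D.R.r → Kˣ),
      (∀ σ, p σ = π σ) ∧ Co p z ∧ (∀ σ τ, tz T g σ τ = GG_ok.hT (z σ τ)) ∧
      (∀ σ τ i, c (σ * τ) i =
        chi0 D.R K (D.R.α (π (σ * τ) i)) (z σ τ) * (c σ (π τ i) * um σ (c τ i))) ∧
      Op ⊤ fun τ => c τ = 1 := by
  have hR := Chev.R_ok D
  have u := fun σ τ => std_uniq GG_ok hR (Std.comp (ψ := (T.a σ).toMonoidHom)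
    (σ := (σ : K →+* K)) (h.1 σ) (h.1 τ)) (g' := g (σ * τ)) (c' := c (σ * τ)) (π' := π (σ * τ))
    (by have := h.1 (σ * τ); rw [map_mul] at this; exact this) (by simp)
  choose u1 z u2 u3 using u
  have o1 : Op ⊤ fun τ => π τ = 1 ∧ c τ = 1 := ((tw_op T).and (near_op h.2.2)).imp fun τ _ e => by
    have a : g τ = 1 := by simpa [h.2.1] using (e.2 1).1
    obtain ⟨a1, s, a2, a3⟩ := std_uniq GG_ok hR (ψ := T.a τ) (σ := τ) (g := 1) (c := 1) (π := 1)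
      ⟨fun _ _ => rfl, fun i u => by simp [e.1, fm_x]⟩ (h.1 τ) (map_one τ)
    obtain rfl : s = 1 := hD.hT_inj (by rw [← a2, a, map_one]; simp)
    exact ⟨a1, funext fun i => by simp [a3]⟩
  have t : ∀ σ τ, tz T g σ τ = GG_ok.hT (z σ τ) := fun σ τ => (mul_assoc _ _ _).trans (u2 σ τ)
  refine ⟨MonoidHom.mk' π u1, z, fun _ => rfl, ⟨fun σ τ ρ j => ?_, ?_⟩, t,
    fun σ τ i => by rw [u3, u1], o1.imp fun _ _ e => e.2⟩
  · have e : GG_ok.hT (z σ (τ * ρ) * fun j => um σ (z τ ρ ((π σ)⁻¹ j))) =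
        GG_ok.hT (z (σ * τ) ρ * z σ τ) := by
      have := std_hT GG_ok (ψ := (T.a σ).toMonoidHom) (σ := (σ : K →+* K)) (h.1 σ) (z τ ρ)
      rw [eq_comm, mul_inv_eq_iff_eq_mul, ← eq_inv_mul_iff_mul_eq, ← t] at this
      rw [map_mul, map_mul, ← t, ← t, ← t, this]
      simp [tz, mul_assoc]
    simpa using congrFun (hD.hT_inj e) (π σ j)
  · refine (o1.and ((near_op h.2.2).and (op_all ((near_op h.2.2).imp fun _ _ e σ => (e σ).1)
      (tw_fix T)))).imp fun τ _ e => ⟨e.1.1, fun σ => ?_⟩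
    have a : g τ = 1 := by simpa [h.2.1] using (e.2.1 1).1
    exact ⟨hD.hT_inj (by rw [← t, tz, a, (e.2.1 σ).1]; simp),
      hD.hT_inj (by rw [← t, tz, a, (e.2.1 σ).2, e.2.2]; simp)⟩

/-- A trivial cocycle which is continuous at the origin. -/
theorem lift_of [Normal k K] (h : ∀ σ, Std (GG D K) (T.a σ) σ (g σ) (c σ) (π σ))
    (h1 : ∀ σ τ, tz T g σ τ = 1) (h2 : Op ⊤ fun τ => g τ = 1) : Lift T := by
  have e : ∀ σ τ, g (σ * τ) = T.a σ (g τ) * g σ := fun σ τ =>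
    inv_mul_eq_one.1 ((mul_assoc _ _ _).symm.trans (h1 σ τ))
  have o : Op ⊤ fun τ => ∀ σ, g (σ * τ) = g σ := h2.imp fun τ _ a σ => by
    rw [e, a, map_one, one_mul]
  refine ⟨g, c, π, ⟨h, by simpa using e 1 1, op_near ((o.and (h2.and (op_all o (tw_fix T)))).imp
    fun τ _ a σ => ⟨a.1 σ, by rw [e, a.2.1, a.2.2, mul_one]⟩)⟩, h1⟩

end

end Vale.Agent.P011UQ
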