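import Vale.Agent.P011UF2.Kit
import Vale.Agent.P011UF2C.Blk
import Vale.Agent.P011UF2M.Cen

/-!
Isotropic forms of `E₆` with nontrivial Tits algebras: assembly.
-/

set_option autoImplicit false
set_option linter.all false

namespace Vale.Agent.P011UQ

open Matrix Vale.Agent.P011L Vale.Agent.P011LD Vale.Agent.P011LE Vale.Agent.P183CH
  Vale.Agent.P011U Vale.Agent.P011UP Vale.Agent.P011UTS Vale.Agent.P011UF2 Vale.Agent.P011UF2C

variable {k K : Type} [Field k] [Field K] [Algebra k K]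

/-- the cocharacter in the special linear group -/
def dl (s : Kˣ) : SA K 6 := mkS (diagonal ![(s : K), s, s, s⁻¹, s⁻¹, s⁻¹]) (by
  rw [det_diagonal, Fin.prod_univ_six]
  simp)

theorem ex_w {E : Matrix (Fin 6) (Fin 6) K} (h : E * E = E) (r : E.rank = 3) : ∃ Y : SA K 6,
    ∀ s : Kˣ, (Y * dl s * Y⁻¹).1.1 = (s : K) • E + (s : K)⁻¹ • (1 - E) := by
  let e : Fin 3 ⊕ Fin 3 ≃ Fin 6 := finSumFinEquiv
  obtain ⟨y, hy⟩ := ex_nf (E := E.submatrix e e) (by rw [submatrix_mul_equiv, h])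
    (by rw [rank_submatrix, r])
  let P : Matrix (Fin 6) (Fin 6) K := diagonal ![1, 1, 1, 0, 0, 0]
  have h1 : E * (re e.symm y).1 = (re e.symm y).1 * P := by
    have := congrArg (fun X => X.submatrix e.symm e.symm) hy
    simp only [← submatrix_mul_equiv _ _ _ e.symm _, submatrix_submatrix, Equiv.self_comp_symm,
      submatrix_id_id] at this
    refine this.trans (congrArg _ ?_)
    ext i j
    fin_cases i <;> fin_cases j <;> rfl
  obtain ⟨Y, h2⟩ : ∃ Y : SA K 6, E * Y.1.1 = Y.1.1 * P :=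
    ⟨mkS ((re e.symm y).1 * diagonal (Function.update 1 0 (re e.symm y).1.det⁻¹)) (by
      rw [det_mul, det_diagonal, Finset.prod_update_of_mem (Finset.mem_univ _)]
      simp [det_ne]), by
      rw [mkS_val, ← mul_assoc, h1, mul_assoc, mul_assoc, diagonal_mul_diagonal,
        diagonal_mul_diagonal]
      simp only [mul_comm]⟩
  refine ⟨Y, fun s => ?_⟩
  have h3 : (dl s).1.1 = (s : K) • P + (s : K)⁻¹ • (1 - P) := by
    ext i j
    fin_cases i <;> fin_cases j <;> simp [dl, mkS_val, P]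
  show Y.1.1 * (dl s).1.1 * Y.1⁻¹.1 = _
  rw [Units.mul_inv_eq_iff_eq_mul, h3]
  simp only [mul_add, add_mul, Matrix.mul_smul, Matrix.smul_mul, mul_sub, sub_mul, h2, mul_one,
    one_mul]

theorem act_w {T : Tw k (SA K 6)} {o M ε E} (h : Rp o T M) (hE : Id3 o M ε E) {w : Kˣ → SA K 6}
    (hw : ∀ s : Kˣ, (w s).1.1 = (s : K) • E + (s : K)⁻¹ • (1 - E))
    (hi : ∀ s, (w s)⁻¹ = w s⁻¹) (σ : K ≃ₐ[k] K) (s : Kˣ) :
    T.a σ (w s) = w (um σ s) ^ (ε σ : ℤ) := by
  have e : (T.a σ (w s)).1.1 = σ s • ac o M σ E + (σ s)⁻¹ • (1 - ac o M σ E) := by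
    rw [eq_mul_inv_of_mul_eq (h σ (w s)), Units.val_mul, Units.val_mul, ac]
    have m : ∀ a b : K, (a • E + b • (1 - E)).map σ = σ a • E.map σ + σ b • (1 - E.map σ) :=
      fun a b => by
        ext i j
        simp [one_apply, apply_ite σ]
    split_ifs with c
    · rw [st_in c, hw, m]
      simp [mul_add, add_mul, mul_sub, sub_mul]
    · rw [st_out c, ← Subgroup.coe_inv, hi, hw, m]
      simp [mul_add, add_mul, mul_sub, sub_mul, add_comm]
  refine Subtype.ext (Units.ext (e.trans ?_))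
  rw [hE.2.2]
  rcases Int.units_eq_one_or (ε σ) with c | c <;> rw [c]
  · simp [hw]
  · simp [hi, hw, add_comm]

theorem f2 (p0 : P0) (dct : DCT) (ari : ARI) (psh : PSH) (a2t : A2T) : F2 := by
  intro k K _ _ _ _ D hk hD T₀ e he hL hA
  have := Glob.inf hk
  obtain ⟨T, q, hL', hP⟩ := p0 k K D hD T₀ e he hL hA
  obtain ⟨ψ⟩ := q.fix
  refine P011LT.PSimple.congr ψ fun N hN hc => ?_
  obtain ⟨u1, -, u3⟩ := ts P011UC.den0 k K D hD T _ hP (so he) N hN hc
  obtain ⟨φ, T', o, M, κ, f1, f2, f3, f4, f5, f6, f7, f8⟩ := dct k K D hD T e he hP hL'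
  have mem : ∀ x, φ x ∈ LJ (GG D K) (J0 e) := fun x => f2 ▸ ⟨x, rfl⟩
  have key : ∀ (t : k) X, t ≠ 0 → Sm o M (algebraMap k K t) X → ∃ (Y : SA K 6) (ε : _) (a b : Kˣ),
      Sw ε (a : K) b ∧ (a * b : K) = algebraMap k K t ∧ (t ≠ 1 → a ≠ b) ∧ ∀ a b : Kˣ,
      Sw ε (a : K) b → ∃ g ∈ N, g.1 = φ Y * ((GG D K).h (e.symm 1) (a * b) * φ (dl a)) * (φ Y)⁻¹ :=
    fun t X t0 hX => by
      obtain ⟨ε, E, a, b, c1, c2, c3, c4⟩ := ari k K _ (by simp) o M κ f4 hk f6 t X t0 hX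
      obtain ⟨Y, hY⟩ := ex_w c1.1 c1.2.1
      have n := mul_ne_zero_iff.1 (c3 ▸ (_root_.map_ne_zero _).2 t0)
      refine ⟨Y, ε, Units.mk0 a n.1, Units.mk0 b n.2, c2, c3,
        fun x y => c4 x (congrArg Units.val y), fun a b s => ?_⟩
      rw [f7 (dl a) a rfl]
      refine a2t k K D hk hD T e he hP N hN u1 _ (mem Y) ε (fun σ t => ?_) a b s
      have := congrArg φ (act_w f5 c1 hY (fun s => f1 (by
        simp only [map_mul, map_inv, f7 (dl _) _ rfl]; group)) σ t)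
      rw [← f3] at this
      simpa only [map_mul, map_inv, map_zpow, f7 (dl _) _ rfl, conj_zpow] using this
  have all : ∀ g : T.fix, g.1 ∈ LJ (GG D K) (J0 e) → g ∈ N := by
    let j : T'.fix →* T.fix := (φ.comp T'.fix.subtype).codRestrict _ fun x σ =>
      (f3 σ x).trans (congrArg φ (x.2 σ))
    have up : ∀ g ∈ T.fix, ∀ x, φ x = g → x ∈ T'.fix := fun g hg x e σ =>
      f1 (by rw [← f3, e, hg σ])
    classical
    obtain ⟨r, hr⟩ := Infinite.exists_notMem_finset ({0, 1, -1} : Finset k)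
    simp only [Finset.mem_insert, Finset.mem_singleton, not_or] at hr
    let ρ : Kˣ := Units.mk0 _ ((_root_.map_ne_zero (algebraMap k K)).2 hr.1)
    obtain ⟨Y, ε, a, b, c1, c2, c3, c4⟩ := key (r ^ 2)
      (Units.map (Matrix.scalar (Fin 6)).toMonoidHom ρ) (pow_ne_zero _ hr.1) (by
        have v : (Units.map (Matrix.scalar (Fin 6)).toMonoidHom ρ).1 = algebraMap k K r • 1 := by
          rw [smul_one_eq_diagonal]; rfl
        refine ⟨fun σ _ => ?_, fun σ _ => ?_⟩ <;>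
          rw [v, P011LD.map_smul', map_one', σ.commutes] <;>
          simp [smul_smul, sq, -algebraMap_smul])
    obtain ⟨g1, d1, d2⟩ := c4 a b c1
    obtain ⟨g2, d3, d4⟩ := c4 ρ ρ fun σ => by simp [ρ]
    have ab : a * b = ρ * ρ := Units.ext (c2.trans (by simp [ρ, sq]))
    have z : (g2⁻¹ * g1).1 = φ (Y * dl (a / ρ) * Y⁻¹) := by
      simp only [Subgroup.coe_mul, Subgroup.coe_inv, d2, d4, ab, map_mul, map_inv, map_div,
        f7 (dl _) _ rfl, div_eq_inv_mul]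
      group
    have := psh k K hk T' o M κ f4 f5 (N.comap j) (hN.comap j) fun c => by
      have c5 := P011UF2M.cenJ hD he (fun σ g hg => by
        obtain ⟨x, rfl⟩ := f2.ge hg
        exact f3 σ x ▸ mem _) (mem _) (z ▸ (g2⁻¹ * g1).2) (fun g hg hg' => by
          obtain ⟨x, rfl⟩ := f2.ge hg'
          have := Subgroup.mem_center_iff.1 (c (x := ⟨_, up _ (g2⁻¹ * g1).2 _ z.symm⟩)
            (Subgroup.mem_comap.2 ((congrArg (· ∈ N) (Subtype.ext z)).mp
              (mul_mem (inv_mem d3) d1)))) ⟨x, up _ hg x rfl⟩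
          rw [← map_mul, ← map_mul]
          exact congrArg (fun x : T'.fix => φ x.1) this.symm) _ (mem (Y * xe 2 1 * Y⁻¹))
      rw [← map_mul, ← map_mul, conj_mul, conj_mul] at c5
      have c6 := congrFun₂ (congrArg (fun x : SA K 6 => x.1.1)
        (mul_left_cancel (mul_right_cancel (f1 c5)))) 2 3
      have c7 : ((a / ρ : Kˣ) : K) = ((a / ρ : Kˣ) : K)⁻¹ := by
        simpa [dl, xe, mkS_val, mul_add, add_mul, -Units.val_div_eq_div_val] using c6
      refine c3 (fun x => ?_) (mul_left_cancel (a := a) ?_)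
      · exact (sq_eq_one_iff.1 x).elim hr.2.1 hr.2.2
      · rw [ab, ← div_eq_one, mul_div_mul_comm]
        exact mul_eq_one_iff_eq_inv.2 (Units.ext (c7.trans (Units.val_inv_eq_inv_val _).symm))
    intro g hg
    obtain ⟨x, hx⟩ := f2.ge hg
    exact (congrArg (· ∈ N) (Subtype.ext hx : j ⟨x, up _ g.2 x hx⟩ = g)).mp
      (Subgroup.mem_comap.1 (this.ge (Subgroup.mem_top _)))
  refine eq_top_iff.2 fun g _ => ?_
  obtain ⟨x, x1, l, l1, rfl⟩ := u3 g
  obtain ⟨t, X, t1, t2⟩ := f8 l.1 l.2 l1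
  obtain ⟨Y, ε, a, b, c1, c2, -, c4⟩ := key t X t.ne_zero t1
  obtain ⟨τ, d1, d2⟩ := c4 a b c1
  refine mul_mem x1 (mul_inv_cancel_left τ l ▸ mul_mem d1 (all _ ?_))
  rw [show Units.map (algebraMap k K).toMonoidHom t = a * b from Units.ext c2.symm] at t2
  have := GG_ok.nm_T_X _ _ (inv_mem (RG.h_mem (e.symm 1) (a * b))) _ (inv_mem (mem Y))
  convert mul_mem (mul_mem (mul_mem (mem Y) (inv_mem (mem (dl a)))) this) t2 using 1
  simp only [Subgroup.coe_mul, Subgroup.coe_inv, d2]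
  group

end Vale.Agent.P011UQ
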