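import Vale.Agent.P011UF2.Defs
import Vale.Agent.P011LL.Main
import Vale.Agent.P011LQ.Two

/-!
The theorem of Landherr over the field of a square root.
-/

set_option autoImplicit false
set_option linter.all false

namespace Vale.Agent.P011UQ

open Matrix IntermediateField Vale.Agent.P011LD Vale.Agent.P011LE Vale.Agent.P011LL
  Vale.Agent.P011UF2 Vale.Agent.P011.RP

theorem np_blk {α β : Type} [Fintype α] [DecidableEq α] [Fintype β] [DecidableEq β]
    {X : Matrix α α ℂ} {Y : Matrix β β ℂ} (hX : X.IsHermitian) (uX : IsUnit X)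
    (hY : Y.IsHermitian) (uY : IsUnit Y) : np (fromBlocks X 0 0 Y) = np X + np Y := by
  obtain ⟨S, η, a, b⟩ := exists_sign_diag hX uX
  obtain ⟨S', η', a', b'⟩ := exists_sign_diag hY uY
  rw [np_eq a b, np_eq a' b', np_eq (T := fromBlocks S 0 0 S')
    (d := Sum.elim (fun i => ((η i : ℤ) : ℝ)) fun i => ((η' i : ℤ) : ℝ))
    (isUnit_fromBlocks_zero₂₁.2 ⟨a, a'⟩)]
  · simp only [Fintype.card_subtype, Finset.card_filter, Fintype.sum_sum_type, Sum.elim_inl,
      Sum.elim_inr]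
    congr
  · simp only [fromBlocks_conjTranspose, fromBlocks_multiply, conjTranspose_zero, Matrix.mul_zero,
      Matrix.zero_mul, add_zero, zero_add, b, b', fromBlocks_diagonal]
    exact congrArg diagonal (funext fun i => by cases i <;> rfl)

/-- The comparison at a real place. -/
theorem cg_blk {h h' x : Matrix (Fin 3) (Fin 3) ℂ} {X : Matrix (Fin 3 ⊕ Fin 3) (Fin 3 ⊕ Fin 3) ℂ}
    {ζ r : ℂ} (e : h = ζ • hᴴ) (e' : h' = ζ • h'ᴴ) (u : IsUnit h) (u' : IsUnit h') (ux : IsUnit x)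
    (uX : IsUnit X) (r0 : r ≠ 0) (hr : star r = r)
    (hX : X * fromBlocks h 0 0 h' * Xᴴ = (-r ^ 2) • fromBlocks h 0 0 h') :
    Cg (-(x * h * xᴴ)) h' := by
  have z1 : ζ * star ζ = 1 := by
    have := e
    rw [e, conjTranspose_smul, conjTranspose_conjTranspose, smul_smul, ← e] at this
    exact smul_left_injective ℂ u.ne_zero (this.symm.trans (one_smul _ _).symm)
  obtain ⟨a, a0, ha⟩ : ∃ a : ℂ, a ≠ 0 ∧ a * ζ = star a := by
    by_cases c : 1 + star ζ = 0
    · refine ⟨Complex.I, Complex.I_ne_zero, ?_⟩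
      rw [show ζ = -1 by linear_combination ζ * c - z1]
      simp
    · exact ⟨_, c, by rw [star_add, star_one, star_star]; linear_combination z1⟩
  have he : ∀ {h : Matrix (Fin 3) (Fin 3) ℂ}, h = ζ • hᴴ → (a • h).IsHermitian := fun {h} e => by
    rw [IsHermitian, conjTranspose_smul, ← ha, mul_smul, ← e]
  have hu : ∀ {h : Matrix (Fin 3) (Fin 3) ℂ}, IsUnit h → IsUnit (a • h) := fun u =>
    u.smul (Units.mk0 a a0)
  have c1 : Cg (fromBlocks (a • h) 0 0 (a • h')) (-fromBlocks (a • h) 0 0 (a • h')) :=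
    ⟨r⁻¹ • X, uX.smul (Units.mk0 _ (inv_ne_zero r0)), by
      have : fromBlocks (a • h) 0 0 (a • h') = a • fromBlocks h 0 0 h' := by
        simp [fromBlocks_smul]
      simp only [this, conjTranspose_smul, Matrix.smul_mul, Matrix.mul_smul, hX, smul_smul,
        star_inv₀, hr, ← neg_smul]
      congr 1
      field_simp⟩
  have c2 := np_add (IsHermitian.fromBlocks (he e) conjTranspose_zero (he e'))
    (isUnit_fromBlocks_zero₂₁.2 ⟨hu u, hu u'⟩)
  have c3 := np_add (he e) (hu u)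
  rw [← c1.np, np_blk (he e) (hu u) (he e') (hu u')] at c2
  simp only [Fintype.card_sum, Fintype.card_fin] at c2 c3
  have c4 := (cg_of_np (he e).neg (hu u).neg (he e') (hu u') (by omega)).smul a⁻¹
  rw [smul_neg, inv_smul_smul₀ a0, inv_smul_smul₀ a0] at c4
  exact Cg.trans (Cg.symm ⟨x, ux, by simp⟩) c4

theorem lnf : LNF := fun k K _ _ _ _ _ o d d' κ h _ _ x u ⟨_, x2, x3, z, z0, z1, z2⟩ δ δ0 _
    ⟨s, s1, s2⟩ hX => by
  have := IsSepClosure.sep_closed k (K := K)
  have : CharZero K := charZero_of_injective_algebraMap (algebraMap k K).injective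
  have := IsSepClosed.isAlgClosed_of_perfectField K
  have : IsAlgClosure k K := ⟨this, inferInstance⟩
  have := P011LQ.nf_adjoin (k := k) δ
  have : IsAlgClosure k⟮δ⟯ K := ⟨‹_›, Algebra.IsAlgebraic.tower_top (K := k) _⟩
  let ρ : (K ≃ₐ[k⟮δ⟯] K) →* K ≃ₐ[k] K :=
    { toFun := fun σ => σ.restrictScalars k, map_one' := rfl, map_mul' := fun _ _ => rfl }
  let up : ∀ σ : K ≃ₐ[k] K, σ δ = δ → K ≃ₐ[k⟮δ⟯] K := fun σ e =>
    AlgEquiv.ofRingEquiv (f := σ.toRingEquiv) (P011LQ.fix_adjoin e)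
  obtain ⟨t, t1, t2⟩ := land k⟮δ⟯ K (Fin 3) (o.comp ρ) (fun σ => d' (ρ σ))
    ⟨fun σ τ => (h.mul (ρ σ) (ρ τ)).imp fun _ e => e.2.1, h.cont.elim fun S e => ⟨S, fun σ _ a =>
      ⟨(e (ρ σ) trivial a).1, 1, by simp [(e (ρ σ) trivial a).2.2.1]⟩⟩⟩ ⟨up s s1, s2⟩ u 1
    ⟨fun σ => x3.1 (ρ σ), fun σ => x3.2 (ρ σ)⟩ ⟨fun σ _ => by simp [map_one'], fun σ _ => by
      simp [map_one']⟩ (by simp) ⟨z, z0, fun σ => z1 (ρ σ), fun σ a => by
      rw [det_one, mul_one]; exact z2 (ρ σ) a⟩ fun w c hc oc => by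
    replace oc : o (ρ c) ≠ 1 := oc
    have cc : ρ c * ρ c = 1 := AlgEquiv.ext fun y => w.injective
      ((hc _).trans ((congrArg star (hc y)).trans (star_star _)))
    have ct : ∀ {m : Type} (y : Matrix m m K), ((y.map (ρ c))ᵀ).map w = (y.map w)ᴴ := fun y =>
      Matrix.ext fun i j => hc _
    obtain ⟨S, hS⟩ := h.cont
    obtain ⟨-, d1, d2, -⟩ := hS 1 trivial fun _ _ => rfl
    obtain ⟨ζ, m1, m2, -⟩ := h.mul (ρ c) (ρ c)
    have m : ∀ {g : GL (Fin 3) K}, (g * st o (ρ c) g).1 = ζ • (1 : GL (Fin 3) K).1 →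
        g.1.map w = w ζ • (g.1.map w)ᴴ := fun {g} e => by
      rw [st, if_neg oc] at e
      have : g.1 = ζ • (g.1.map (ρ c))ᵀ := by
        conv_lhs => rw [← mul_one g.1, ← tr_inv g (ρ c), ← mul_assoc]
        exact (congrArg (· * _) e).trans (by simp)
      rw [← ct]
      conv_lhs => rw [this]
      exact Matrix.ext fun i j => map_mul w _ _
    rw [cc, d1] at m1
    rw [cc, d2] at m2
    obtain ⟨X, eX⟩ := hX (ρ c) oc
    have un : ∀ {m : Type} [Fintype m] [DecidableEq m] (g : GL m K), IsUnit (g.1.map w) :=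
      fun g => g.isUnit.map w.mapMatrix
    have := cg_blk (m m1) (m m2) (un _) (un _) (un x) (un X) (r := w δ)
      ((_root_.map_ne_zero w).2 δ0) ((hc δ).symm.trans (congrArg w (c.commutes
        (AdjoinSimple.gen k δ)))) (by
        have := congrArg (·.map w) eX
        simp only [Matrix.map_mul, ct, fromBlocks_map, Matrix.map_zero _ (map_zero w)] at this
        refine this.trans (Matrix.ext fun i j => ?_)
        rcases i with i | i <;> rcases j with j | j <;> simp)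
    rw [one_mul, x2 (ρ c) oc, Matrix.map_neg _ (map_neg w), Matrix.map_mul, Matrix.map_mul, ct]
    exact this
  exact ⟨t, fun σ e => ⟨t1 (up σ e), fun a => by
    have := t2 (up σ e) a
    rwa [one_mul] at this⟩⟩

end Vale.Agent.P011UQ
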