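import Vale.Agent.P011U.IF2
import Vale.Agent.P011LQ.Sub
import Vale.Agent.P011.H271.QuadF

/-!
The block CQ: exact statements.
-/

set_option autoImplicit false
set_option linter.all false

namespace Vale.Agent.P011UQ

open Module IntermediateField Vale.Agent.P011L Vale.Agent.P011LD Vale.Agent.P011LQ
  Vale.Agent.P183CH Vale.Agent.P011U Vale.Agent.P011.W Vale.Agent.P011.H738 Vale.Agent.P011.H271

/-- The diagram automorphisms move at most three nodes. -/
def DG3 : Prop := ∀ R : RS, R.Ok → ¬TyA R → (Ex2 R ∨ ∃ n e, 4 ≤ n ∧ Ty R (CartanMatrix.D n) e) →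
  ∃ E : Finset (Fin R.r), E.card ≤ 3 ∧ ∀ π, Dg R π → ∀ j ∉ E, π j = j

/-- The first node in type `D`. -/
def DG1 : Prop := ∀ (R : RS) n e, Ty R (CartanMatrix.D (n + 1)) e → 4 ≤ n →
  (∀ π, Dg R π → π (e.symm 0) = e.symm 0) ∧ ∀ i, ∃ (γ : R.Q) (m : ℤ), ∀ j,
    R.pr γ j = (if j = i then 2 else 0) - if j = e.symm 0 then m else 0

/-- One quadratic extension splits finitely many projective actions of exponent two. -/
def BQ (P : ∀ (k : Type) [Field k], Prop) : Prop :=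
  ∀ (k K : Type) [Field k] [Field K] [Algebra k K] [IsSepClosure k K], P k →
    ∀ Γ : Subgroup (K ≃ₐ[k] K), Op ⊤ (· ∈ Γ) → Γ.index ≤ 3 →
    ∀ (ι n : Type) [Finite ι] [Fintype n] [DecidableEq n] [Nonempty n]
      (Δ : ι → Subgroup (K ≃ₐ[k] K)) (A : ι → (K ≃ₐ[k] K) → GL n K) (l : ι → (K ≃ₐ[k] K) → K),
      (∀ i, Δ i = ⊤ ∨ Δ i = Γ) → (∀ i, PA (Δ i) 2 (A i) (l i)) →
      ∃ r : K, finrank k k⟮r⟯ = 2 ∧ NoR k⟮r⟯ ∧ (∃ σ ∈ Γ, σ r ≠ r) ∧
        ∀ i, Sp {σ | σ ∈ Δ i ∧ σ r = r} (A i)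

/-- The polynomial `X ^ 2 + X + a` defines a ramified or an unramified quadratic extension. -/
def Lt {R : Type} [NormedField R] (a : R) : Prop :=
  (1 < ‖a‖ ∧ ∀ y : R, ‖y‖ ^ 2 ≠ ‖a‖) ∨ (‖a‖ ≤ 1 ∧ ∀ y : R, ‖y‖ ≤ 1 → ¬‖y ^ 2 + y + a‖ < 1)

/-- Local quaternion algebras are split by these extensions. -/
def LQ2 : Prop := ∀ (R E : Type) [NontriviallyNormedField R] [IsUltrametricDist R] [ProperSpace R]
  [DivisionRing E] [Algebra R E] [FiniteDimensional R E] [Algebra.IsCentral R E],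
  finrank R E = 2 ^ 2 → ∀ a : R, Lt a → ∀ (R' : Type) [Field R'] (φ : R →+* R') (θ : R'),
    θ ^ 2 + θ + φ a = 0 → Spl E 2 φ

/-- The choice of the extension. -/
def EXQ : Prop := ∀ (k F : Type) [Field k] [GFF k] [Field F] [GFF F] [Algebra k F]
  [FiniteDimensional k F] [Algebra.IsSeparable k F], finrank k F ≤ 3 →
  ∀ (S : Set (Place k)) (S' : Set (Place F)), S.Finite → S'.Finite →
    ∃ a : k, (∀ v ∈ S, Lt (algebraMap k v.comp a)) ∧
      ∀ w ∈ S', Lt (algebraMap F w.comp (algebraMap k F a))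

/-- The division algebra of a projective action, in every characteristic: the local indices divide
the exponent, and a splitting field splits the action. -/
def LDV : Prop := ∀ (k K : Type) [Field k] [Field K] [Algebra k K] [IsSepClosure k K] (n : Type)
  [Fintype n] [DecidableEq n] [Nonempty n] (p : ℕ) (A : (K ≃ₐ[k] K) → GL n K)
  (l : (K ≃ₐ[k] K) → K), PA ⊤ p A l →
    ∃ (d : ℕ) (D : Type) (_ : DivisionRing D) (_ : Algebra k D) (_ : FiniteDimensional k D)
      (_ : Algebra.IsCentral k D), finrank k D = d ^ 2 ∧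
      (∀ (R : Type) [NontriviallyNormedField R] [IsUltrametricDist R] [ProperSpace R]
        [Algebra k R], ∃ (q : ℕ) (E : Type) (_ : DivisionRing E) (_ : Algebra R E)
        (_ : FiniteDimensional R E) (_ : Algebra.IsCentral R E), q ∣ p ∧ finrank R E = q ^ 2 ∧
        ∀ (R' : Type) [Field R'] (φ : R →+* R'),
          Spl D d (φ.comp (algebraMap k R)) ↔ Spl E q φ) ∧
      ∀ r : K, Spl D d (algebraMap k k⟮r⟯) → Sp {σ | σ r = r} A

/-- Exponent two over a global function field. -/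
def TWF : Prop := ∀ (k K : Type) [Field k] [GFF k] [Field K] [Algebra k K] [IsSepClosure k K]
  (n : Type) [Fintype n] [DecidableEq n] [Nonempty n] (A : (K ≃ₐ[k] K) → GL n K)
  (l : (K ≃ₐ[k] K) → K), PA ⊤ 2 A l → ∃ S : Set (Place k), S.Finite ∧ ∀ (a : k) (r : K),
    r ^ 2 + r + algebraMap k K a = 0 → (∀ v ∈ S, Lt (algebraMap k v.comp a)) →
      Sp {σ | σ r = r} A

/-- Number fields. -/
def BQN : Prop := BQ fun k _ => NumberField k

/-- Function fields. -/
def BQF : Prop := BQ fun k _ => GFF k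

end Vale.Agent.P011UQ
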