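import Vale.Agent.P011UQ.IF
import Vale.Agent.P011.Hey.Fin0
import Vale.Agent.P011.Hey.H63.PlaceRes

/-!
One quadratic extension for finitely many projective actions: function fields.
-/

set_option autoImplicit false
set_option linter.all false

namespace Vale.Agent.P011UQ

open Module IntermediateField Polynomial Vale.Agent.P011LD Vale.Agent.P011LQ Vale.Agent.P011U
  Vale.Agent.P011 Vale.Agent.P011.H738 Vale.Agent.P011.H271

theorem Lt.ne {R : Type} [NormedField R] [IsUltrametricDist R] {a : R} (h : Lt a) (y : R) :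
    y ^ 2 + y + a ≠ 0 := fun e => by
  have e1 : ‖a‖ = ‖y‖ * ‖y + 1‖ := by
    rw [← norm_mul, ← norm_neg a]
    exact congrArg _ (by linear_combination -e)
  have e2 : 1 < ‖y‖ → ‖y‖ ^ 2 = ‖a‖ := fun c => by
    rw [e1, IsUltrametricDist.norm_add_eq_max_of_norm_ne_norm (by simpa using c.ne'), norm_one,
      max_eq_left c.le, sq]
  by_cases c : ‖y‖ ≤ 1
  · refine h.elim (fun h => h.1.not_ge ?_) fun h => h.2 y c (by simp [e])
    exact e1 ▸ mul_le_one₀ c (norm_nonneg _)
      ((IsUltrametricDist.norm_add_le_max _ _).trans (by simp [c]))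
  · exact h.elim (fun h => h.2 y (e2 (not_le.1 c))) fun h => by nlinarith [e2 (not_le.1 c), h.1]

theorem bqf (hT : TWF) (hE : EXQ) : BQF := fun k K _ _ _ _ hk Γ hΓ hi ι n _ _ _ _ Δ A l h1 h2 => by
  have := IsSepClosure.sep_closed k (K := K)
  have : IsGalois k K := IsSepClosure.isGalois
  obtain ⟨F, _, f1, f2⟩ := exists_field hΓ
  have : GFF F := Hey.H63.gff_of_finite (k := k)
  have : IsSepClosure F K := ⟨inferInstance, Algebra.isSeparable_tower_top_of_isSeparable k F K⟩
  have : ∀ i, ∃ (S : Set (Place k)) (S' : Set (Place F)), S.Finite ∧ S'.Finite ∧ ∀ (a : k) (r : K),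
      r ^ 2 + r + algebraMap k K a = 0 → (∀ v ∈ S, Lt (algebraMap k v.comp a)) →
      (∀ w ∈ S', Lt (algebraMap F w.comp (algebraMap k F a))) →
      Sp {σ | σ ∈ Δ i ∧ σ r = r} (A i) := fun i => by
    rcases h1 i with e | e
    · obtain ⟨S, a1, a2⟩ := hT k K n _ _ (e ▸ h2 i)
      exact ⟨S, ∅, a1, Set.finite_empty, fun a r x y _ => (a2 a r x y).mono fun _ z => z.2⟩
    · obtain ⟨S, a1, a2⟩ := hT F K n _ _ ((e ▸ h2 i).res f2)
      exact ⟨∅, S, Set.finite_empty, a1, fun a r x _ y => e ▸ Sp.res f2 (a2 _ r x y)⟩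
  choose S S' s1 s2 s3 using this
  obtain ⟨w⟩ := Hey.nonempty_place F
  obtain ⟨a, a1, a2⟩ := hE k F (f1 ▸ hi) _ _ (Set.finite_iUnion s1)
    ((Set.finite_iUnion s2).insert w)
  have n1 : ∀ y : F, (y : K) ^ 2 + y + algebraMap k K a ≠ 0 := fun y e =>
    (a2 w (Set.mem_insert _ _)).ne (algebraMap F _ y) (by
      rw [← map_pow, ← map_add, ← map_add, show y ^ 2 + y + algebraMap k F a = 0 from
        Subtype.ext e, map_zero])
  have n2 : 1 - 4 * a ≠ 0 := fun e => by
    have t : (2 : k) ≠ 0 := fun t => one_ne_zero (α := k) (by linear_combination e + 2 * a * t)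
    refine n1 (algebraMap k F (-2⁻¹)) ?_
    rw [coe_algebraMap_apply, ← map_pow, ← map_add, ← map_add, _root_.map_eq_zero]
    field_simp
    linear_combination -e
  have d : (X ^ 2 + X + C a).natDegree = 2 := by compute_degree!
  have p0 : X ^ 2 + X + C a ≠ 0 := by rintro e; simp [e] at d
  obtain ⟨r, hr⟩ := IsSepClosed.exists_aeval_eq_zero K (X ^ 2 + X + C a)
    (natDegree_pos_iff_degree_pos.1 (by omega)).ne' ⟨C (1 - 4 * a)⁻¹ * -4, C (1 - 4 * a)⁻¹ * (2 * X + 1),
      by
        have := congrArg C (inv_mul_cancel₀ n2)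
        simp only [map_mul, map_sub, map_one, map_ofNat] at this
        simp only [derivative_add, derivative_X_sq, derivative_X, derivative_C, map_ofNat]
        linear_combination this⟩
  have hr' : r ^ 2 + r + algebraMap k K a = 0 := by simpa using hr
  have i1 := Algebra.IsIntegral.isIntegral (R := k) r
  refine ⟨r, ?_, ⟨fun φ => ?_⟩, ?_, fun i => s3 i a r hr' (fun v x => a1 v (Set.mem_iUnion.2 ⟨i, x⟩))
    fun v x => a2 v (Or.inr (Set.mem_iUnion.2 ⟨i, x⟩))⟩
  · rw [adjoin.finrank i1]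
    refine le_antisymm (d ▸ natDegree_le_of_dvd (minpoly.dvd k r hr) p0)
      ((minpoly.two_le_natDegree_iff i1).2 ?_)
    rintro ⟨y, rfl⟩
    exact n1 (algebraMap k F y) hr'
  · obtain ⟨E, _, _, ψ, -⟩ := hk.out
    have := ((φ.comp (algebraMap k _)).comp (ψ.comp (algebraMap E _))).charZero
    exact not_finite E
  · by_contra c
    exact n1 ⟨r, fixed_sub F fun σ s => by_contra fun e =>
      c ⟨σ, (f2 σ).2 fun x hx => s ⟨x, hx⟩, e⟩⟩ hr'

end Vale.Agent.P011UQ
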