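import Vale.Agent.P011UQ.Tz
import Vale.Agent.P011UQ.IF

/-!
Cocycles with values in permutation modules: the lemma of Shapiro and projective actions.
-/

set_option autoImplicit false
set_option linter.all false

namespace Vale.Agent.P011UQ

open Matrix Vale.Agent.P011LD Vale.Agent.P011LQ

/-- The stabiliser of a node. -/
def St {G ι : Type} [Group G] (p : G →* Equiv.Perm ι) (i : ι) : Subgroup G :=
  (MulAction.stabilizer (Equiv.Perm ι) i).comap p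

theorem mem_St {G ι : Type} [Group G] {p : G →* Equiv.Perm ι} {i : ι} {σ : G} :
    σ ∈ St p i ↔ p σ i = i := Iff.rfl

/-- At most three points are moved. -/
theorem orb {G ι : Type} [Group G] (p : G →* Equiv.Perm ι) {E : Finset ι} (hE : E.card ≤ 3)
    (h : ∀ σ, ∀ j ∉ E, p σ j = j) : ∃ (Γ : Subgroup G) (b : ι → ι), p.ker ≤ Γ ∧ Γ.index ≤ 3 ∧
      (∀ j, St p (b j) = ⊤ ∨ St p (b j) = Γ) ∧ (∀ σ j, b (p σ j) = b j) ∧
      ∀ j, ∃ σ, p σ (b j) = j := by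
  classical
  have mv : ∀ σ j, ¬(∀ τ, p τ j = j) → ¬∀ τ, p τ (p σ j) = p σ j := fun σ j a e => a fun τ => by
    have := e (σ * τ * σ⁻¹)
    simpa using this
  have mE : ∀ j, ¬(∀ τ, p τ j = j) → j ∈ E := fun j a => by_contra fun e => a fun τ => h τ j e
  by_cases e : ∀ j σ, p σ j = j
  · exact ⟨⊤, id, le_top, by simp, fun j => Or.inl (eq_top_iff.2 fun σ _ => e j σ),
      fun σ j => e j σ, fun j => ⟨1, e j 1⟩⟩
  obtain ⟨i, hi⟩ := not_forall.1 e
  refine ⟨St p i, fun j => if ∀ τ, p τ j = j then j else i, fun σ s => mem_St.2 (by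
    rw [MonoidHom.mem_ker.1 s]; rfl), ?_, fun j => ?_, fun σ j => ?_, fun j => ?_⟩
  · let f : G ⧸ St p i → E := fun x => ⟨p x.out i, mE _ (mv _ _ hi)⟩
    have : Function.Injective f := fun x y a => by
      rw [← x.out_eq, ← y.out_eq]
      refine QuotientGroup.eq.2 (mem_St.2 ?_)
      have a' : p x.out i = p y.out i := congrArg Subtype.val a
      simp [← a']
    exact (Nat.card_le_card_of_injective f this).trans (by simpa using hE)
  · by_cases a : ∀ τ, p τ j = j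
    · exact Or.inl (by simp only [if_pos a]; exact eq_top_iff.2 fun σ _ => a σ)
    · exact Or.inr (by simp only [if_neg a])
  · by_cases a : ∀ τ, p τ j = j
    · simp only [a]
    · simp only [if_neg a, if_neg (mv σ j a)]
  · by_cases a : ∀ τ, p τ j = j
    · exact ⟨1, by simp [a]⟩
    · simp only [if_neg a]
      by_contra c
      obtain ⟨σ, hσ⟩ := not_forall.1 hi
      obtain ⟨τ, hτ⟩ := not_forall.1 a
      have c1 : ∀ ρ, p ρ i ≠ j := fun ρ e => c ⟨ρ, e⟩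
      have c2 : ∀ ρ, p ρ i ≠ p τ j := fun ρ e => c1 (τ⁻¹ * ρ) (by simp [e])
      have := Finset.card_le_card (s := {p 1 i, p σ i, j, p τ j}) (t := E) (by
        simp only [Finset.insert_subset_iff, Finset.singleton_subset_iff]
        exact ⟨mE _ (mv _ _ hi), mE _ (mv _ _ hi), mE _ a, mE _ (mv _ _ a)⟩)
      rw [Finset.card_insert_of_notMem (by simpa [Ne.symm hσ] using And.intro (c1 1) (c2 1)), Finset.card_insert_of_notMem (by simp [c1, c2]),
        Finset.card_insert_of_notMem (by simp [Ne.symm hτ]), Finset.card_singleton] at this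
      omega

variable {k K : Type} [Field k] [Field K] [Algebra k K] {ι : Type}
  {p : (K ≃ₐ[k] K) →* Equiv.Perm ι} {z : (K ≃ₐ[k] K) → (K ≃ₐ[k] K) → ι → Kˣ}

theorem um_mul (σ τ : K ≃ₐ[k] K) (x : Kˣ) : um (σ * τ) x = um σ (um τ x) := rfl

/-- The coordinate `i` of the cocycle is a coboundary on `Δ`. -/
def Bd (z : (K ≃ₐ[k] K) → (K ≃ₐ[k] K) → ι → Kˣ) (Δ : Set (K ≃ₐ[k] K)) (i : ι) : Prop :=
  ∃ μ : (K ≃ₐ[k] K) → Kˣ, (∀ σ ∈ Δ, ∀ τ ∈ Δ, z σ τ i * um σ (μ τ) * μ σ = μ (σ * τ)) ∧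
    Op ⊤ fun σ => σ ∈ Δ → μ σ = 1

theorem cg {A : Type} [CommGroup A] {a b c d e f g h i x y w : A} (c1 : a * b = c * d)
    (c2 : a * e = f * g) (c3 : h * i = f * x) :
    d * (e * y / b) * (x * w / g) = h * (i * y * w) / c := by
  rw [eq_inv_mul_of_mul_eq c1.symm, eq_inv_mul_of_mul_eq c2, eq_mul_inv_of_mul_eq c3]
  apply Additive.ofMul.injective
  simp only [div_eq_mul_inv, ofMul_mul, ofMul_inv]
  abel

/-- **The lemma of Shapiro.** -/
theorem shapiro [Normal k K] [Finite ι] (h : Co p z) {Δ : Subgroup (K ≃ₐ[k] K)} {b : ι → ι}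
    (hb : ∀ σ j, b (p σ j) = b j) (hs : ∀ j, ∃ s ∈ Δ, p s (b j) = j)
    (hB : ∀ j, Bd z {σ | σ ∈ St p (b j) ∧ σ ∈ Δ} (b j)) : ∃ t : (K ≃ₐ[k] K) → ι → Kˣ,
      (∀ σ ∈ Δ, ∀ τ ∈ Δ, ∀ j, z σ τ (p σ j) * um σ (t τ j) * t σ (p σ j) = t (σ * τ) (p σ j)) ∧
      Op ⊤ fun σ => σ ∈ Δ → t σ = 1 := by
  classical
  choose s s1 s2 using hs
  have hB' : ∀ i, ∃ μ : (K ≃ₐ[k] K) → Kˣ, ∀ j, b j = i → (∀ σ ∈ Δ, p σ i = i → ∀ τ ∈ Δ, p τ i = i →
      z σ τ i * um σ (μ τ) * μ σ = μ (σ * τ)) ∧ Op ⊤ fun σ => σ ∈ Δ → p σ i = i → μ σ = 1 :=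
    fun i => by
      by_cases e : ∃ j, b j = i
      · obtain ⟨j, rfl⟩ := e
        obtain ⟨μ, a1, a2⟩ := hB j
        exact ⟨μ, fun _ _ => ⟨fun σ x x' τ y y' => a1 σ ⟨x', x⟩ τ ⟨y', y⟩,
          a2.imp fun σ _ a x x' => a ⟨x', x⟩⟩⟩
      · exact ⟨1, fun j a => (e ⟨j, a⟩).elim⟩
  choose μ hμ using hB'
  let γ : (K ≃ₐ[k] K) → ι → K ≃ₐ[k] K := fun σ j => (s (p σ j))⁻¹ * σ * s j
  have g1 : ∀ σ ∈ Δ, ∀ j, γ σ j ∈ Δ := fun σ x j => mul_mem (mul_mem (inv_mem (s1 _)) x) (s1 _)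
  have g2 : ∀ σ j, p (γ σ j) (b j) = b j := fun σ j => by
    have := s2 (p σ j)
    rw [hb] at this
    simp only [γ, map_mul, Equiv.Perm.mul_apply, s2, map_inv]
    exact Equiv.Perm.inv_eq_iff_eq.2 this.symm
  let u : (K ≃ₐ[k] K) → ι → Kˣ := fun σ j =>
    z (s (p σ j)) (γ σ j) (p σ j) * um (s (p σ j)) (μ (b j) (γ σ j)) / z σ (s j) (p σ j)
  refine ⟨fun σ j => u σ ((p σ)⁻¹ j), fun σ x τ y j => ?_, ?_⟩
  · obtain ⟨j, rfl⟩ := (p τ).surjective j
    have e0 : p (σ * τ) j = p σ (p τ j) := by simp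
    have e1 : γ (σ * τ) j = γ σ (p τ j) * γ τ j := by simp [γ, mul_assoc]
    have e2 : ∀ σ j, σ * s j = s (p σ j) * γ σ j := fun σ j => by simp [γ, mul_assoc]
    have c0 := congrArg (um (s (p σ (p τ j))))
      ((hμ _ j rfl).1 _ (g1 σ x (p τ j)) (hb τ j ▸ g2 σ (p τ j)) _ (g1 τ y j) (g2 τ j))
    have c1 := h.co σ τ (s j) (p τ j)
    have c2 := h.co σ (s (p τ j)) (γ τ j) (p τ j)
    have c3 := h.co (s (p σ (p τ j))) (γ σ (p τ j)) (γ τ j) (b j)
    rw [show p (s (p σ (p τ j))) (b j) = p σ (p τ j) by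
      simpa only [hb] using s2 (p σ (p τ j)), ← e2] at c3
    rw [map_mul, map_mul, ← um_mul, ← e2] at c0
    rw [← e2] at c2
    have e3 : ∀ σ j, (p σ)⁻¹ (p σ j) = j := fun σ j => by simp
    beta_reduce
    rw [← e0, e3, e3, e0, e3]
    simp only [u, e0, e1, hb, ← c0]
    rw [map_div, map_mul, ← um_mul]
    exact cg c1 c2 c3
  · obtain ⟨N, _, -, n1, n2⟩ := exists_normal (h.op.and (Op.all fun j => (hμ _ j rfl).2))
    refine n1.imp fun σ _ x y => funext fun j => ?_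
    have a := (n2 σ x).1
    have a' : γ σ j ∈ N := by simpa [γ, a.1] using ‹N.Normal›.conj_mem' σ x (s j)
    have := (n2 _ a').2 j (g1 σ y j) (g2 σ j)
    simp [u, a.1, this, ((n2 _ a').1.2 _).1, (a.2 _).2]

/-- The projective action of a coordinate of the cocycle. -/
theorem pa_of [Normal k K] (h : Co p z) : ∃ (n : Type) (_ : Fintype n) (_ : DecidableEq n)
    (_ : Nonempty n) (A : ι → (K ≃ₐ[k] K) → GL n K), (∀ i, ∀ σ ∈ St p i, ∀ τ ∈ St p i,
      (A i σ).1 * (A i τ).1.map σ = (z σ τ i : K) • (A i (σ * τ)).1) ∧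
      Op ⊤ fun σ => ∀ i, (A i σ).1 = 1 := by
  classical
  obtain ⟨N, _, _, n1, n2⟩ := exists_normal h.op
  let _ := Fintype.ofFinite ((K ≃ₐ[k] K) ⧸ N)
  let M : ι → (K ≃ₐ[k] K) → Matrix (_ ⧸ N) (_ ⧸ N) K := fun i σ =>
    of fun ρ ρ' => if ρ = σ • ρ' then (z σ ρ'.out i : K) else 0
  have e1 : ∀ σ τ, ∀ ν ∈ N, z σ (τ * ν) = z σ τ := fun σ τ ν x => funext fun j => by
    obtain ⟨j, rfl⟩ := (p σ).surjective j
    simpa [((n2 ν x).2 _).1] using h.co σ τ ν j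
  have e2 : ∀ σ τ (ρ : _ ⧸ N), z σ (τ • ρ).out = z σ (τ * ρ.out) := fun σ τ ρ => by
    obtain ⟨ν, hν⟩ := QuotientGroup.mk_out_eq_mul N (τ * ρ.out)
    rw [← e1 σ (τ * ρ.out) ν.1 ν.2, ← hν, ← smul_eq_mul, MulAction.Quotient.mk_smul_out]
  have m : ∀ i, ∀ σ ∈ St p i, ∀ τ ∈ St p i,
      M i σ * (M i τ).map σ = (z σ τ i : K) • M i (σ * τ) := fun i σ x τ y => by
    ext ρ ρ'
    rw [Matrix.mul_apply, Finset.sum_eq_single (τ • ρ') (fun a _ e => by simp [M, e]) (by simp)]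
    have := congrArg Units.val (h.co σ τ ρ'.out i)
    rw [mem_St.1 x, ← e2] at this
    simp only [M, of_apply, map_apply, if_true, Matrix.smul_apply, mul_smul, smul_eq_mul]
    split_ifs
    · exact this.trans (mul_comm _ _)
    · simp
  have m1 : ∀ i, ∀ σ ∈ N, M i σ = 1 := fun i σ x => by
    ext ρ ρ'
    have : σ • ρ' = ρ' := by
      rw [← ρ'.out_eq, MulAction.Quotient.smul_mk, QuotientGroup.eq]
      simpa using ‹N.Normal›.conj_mem' _ (inv_mem x) ρ'.out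
    simp [M, this, ((n2 σ x).2 _).2, one_apply]
  have u : ∀ i, ∀ σ ∈ St p i, IsUnit (M i σ) := fun i σ x =>
    IsUnit.of_mul_eq_one ((z σ σ⁻¹ i : K)⁻¹ • (M i σ⁻¹).map σ) (by
      rw [Matrix.mul_smul, m i σ x _ (inv_mem x), mul_inv_cancel, m1 i 1 (one_mem _), smul_smul,
        inv_mul_cancel₀ (Units.ne_zero _), one_smul])
  refine ⟨_ ⧸ N, inferInstance, inferInstance, inferInstance,
    fun i σ => if e : IsUnit (M i σ) then e.unit else 1, fun i σ x τ y => ?_,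
    n1.imp fun σ _ x i => ?_⟩
  · simpa only [dif_pos (u i σ x), dif_pos (u i τ y), dif_pos (u i _ (mul_mem x y)),
      IsUnit.unit_spec] using m i σ x τ y
  · simp [m1 i σ x]

/-- A split action has a trivial cocycle. -/
theorem bd_of {n : Type} [Fintype n] [DecidableEq n] [Nonempty n] {A : (K ≃ₐ[k] K) → GL n K}
    {Δ : Subgroup (K ≃ₐ[k] K)} {i : ι} (h : ∀ σ ∈ Δ, ∀ τ ∈ Δ,
      (A σ).1 * (A τ).1.map σ = (z σ τ i : K) • (A (σ * τ)).1) (h1 : Op ⊤ fun σ => (A σ).1 = 1)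
    (hS : Sp Δ A) : Bd z Δ i := by
  obtain ⟨g, hg⟩ := hS
  have g0 : g.1 ≠ 0 := g.ne_zero
  have : ∀ σ, ∃ μ : Kˣ, σ ∈ Δ → (A σ).1 * g.1.map σ = (μ : K) • g.1 := fun σ => by
    by_cases x : σ ∈ Δ
    · obtain ⟨μ, e⟩ := hg σ x
      refine ⟨Units.mk0 μ ?_, fun _ => e⟩
      rintro rfl
      rw [zero_smul] at e
      exact (A σ * Units.map (σ : K →+* K).mapMatrix.toMonoidHom g).ne_zero e
    · exact ⟨1, fun y => (x y).elim⟩
  choose μ hμ using this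
  refine ⟨fun σ => (μ σ)⁻¹, fun σ x τ y => ?_, (h1.and (Op.mat ⊤ g.1)).imp fun σ _ e x => ?_⟩
  · have e := congrArg (fun M => (A σ).1 * M.map σ) (hμ τ y)
    simp only [map_mul', P011LD.map_smul', ← Matrix.mul_assoc, h σ x τ y, Matrix.mul_smul,
      Matrix.smul_mul, hμ σ x, smul_smul] at e
    rw [show (g.1.map τ).map σ = g.1.map (σ * τ) from rfl, hμ _ (mul_mem x y), smul_smul] at e
    have e' : z σ τ i * μ (σ * τ) = um σ (μ τ) * μ σ := Units.ext (smul_left_injective K g0 e)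
    simp only [map_inv]
    rw [mul_assoc, ← _root_.mul_inv_rev, mul_comm (μ σ), ← e']
    simp
  · have := hμ σ x
    rw [e.1, e.2, Matrix.one_mul] at this
    exact inv_eq_one.2 (Units.ext (smul_left_injective K g0 (this.symm.trans (one_smul K _).symm)))

end Vale.Agent.P011UQ
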