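import Vale.Agent.P011UQ.Asm
import Vale.Agent.P011UQ.Bqf
import Vale.Agent.P011UQ4.Main
import Vale.Agent.P011UQ5.Exq
import Vale.Agent.P011UQ6.Ldv
import Vale.Agent.P011UQ7.Twf
import Vale.Agent.P011UQ74.Bqn

/-!
The Tits algebras are killed by a totally imaginary quadratic extension.
-/

namespace Vale.Agent.P011UQ

theorem bqf0 : BQF := bqf (P011UQ7.twf P011UQ6.ldv P011UQ4.lq2) P011UQ5.exq

theorem cq : P011U.CQ := cq_of P011UQ74.bqn bqf0

end Vale.Agent.P011UQ
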